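import Crest.Agent.X212.Mon62.Pb
import Crest.Agent.X212.Gla92.Cf
import Crest.Agent.X212.Csm97.Mod
import Crest.Agent.X212.An.Syn

/-! # Row 212, GLL-CAP (helper39): the calculus for moving connections, uniform test data -/

set_option autoImplicit false
set_option linter.unusedSectionVars false
set_option maxSynthPendingDepth 3
noncomputable section
open scoped Manifold ContDiff Topology InnerProductSpace
open MeasureTheory Set Function Filter

namespace Crest.Agent.X212.Cap39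
open An Sob92 Prm93 Wz78 Mod61 Mon62 Mon62.Dm
open Ell97 (UB)
open Std94 (Kl)
open Gla92 (usK us_dG us_mul)
open Wrd81 (wd Tf Tv SwIn LlIn SdIn AwIn SgIn CoIn TmIn)

variable {E : Type} [NormedAddCommGroup E] [NormedSpace ℝ E] [FiniteDimensional ℝ E]
  [MeasurableSpace E] [BorelSpace E]
  {HM : Type} [TopologicalSpace HM] {I : ModelWithCorners ℝ E HM} [I.Boundaryless]
  {M : Type} [TopologicalSpace M] [ChartedSpace HM M] [IsManifold I ∞ M]
  [MeasurableSpace M] [T2Space M] [BorelSpace M] [SecondCountableTopology M] {ι : Type} [Fintype ι]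
  {lam : Type} [Fintype lam]
  {J : Type} {X Y : J → Type} [∀ i, NormedAddCommGroup (X i)] [∀ i, NormedSpace ℝ (X i)]
  {D : Dm I M ι X Y} {j l : ℕ}

section curv
variable {κ : Type} [Fintype κ] [DecidableEq κ] {G : ∀ i, X i → Fr I M ι}
  {f : ι → ∀ i, X i → M → En κ}

/-- the curvature of a smooth family of connections -/
theorem us_curv (hF : D.FF G) (hf : ∀ a, D.US (f a)) (a b : ι) :
    D.US fun i x => curv I (G i x).e (G i x).c (fun a => f a i x) a b :=
  have m : ∀ a, (usK D).mem fun q => f a q.1.1 q.1.2 q.2 := hf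
  have d : ∀ a b, (usK D).mem fun q => (G q.1.1 q.1.2).D a (f b q.1.1 q.1.2) q.2 :=
    fun a b => us_dG hF (hf b) a
  have c : ∀ k, (usK D).mem fun q => (G q.1.1 q.1.2).c a b k q.2 := fun k => (hF.c a b k).us
  Kl.sub ((usK D).add (Kl.sub (d a b) (d b a)) (Kl.sub (Kl.mulL (m a) (m b)) (Kl.mulL (m b) (m a))))
    (Kl.fsum Finset.univ fun k => Kl.smul (c k) (m k))

/-- the curvature changes by a pure family -/
theorem a0_curv (hF : D.FF G) (hj : 7 ≤ j) (hl : 4 ≤ l) (hlj : l + 1 ≤ j) (hf : ∀ a, D.US (f a))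
    {α : ι → ∀ i, Y i → M → HS κ} (hα : ∀ a, D.A0 True j (α a)) (a b : ι) :
    D.A0 True l fun i y x => hsL (curv I (G i (D.pt i y)).e (G i (D.pt i y)).c
      (fun a x => f a i (D.pt i y) x + opL (α a i y x)) a b x) -
      hsL (curv I (G i (D.pt i y)).e (G i (D.pt i y)).c (fun a => f a i (D.pt i y)) a b x) := by
  have p := fun a => (hα a).lower hl (by omega)
  have d := fun a b => ((hα b).lower (by omega) hlj).dG hF hl a
  have m := fun a b => us_mul (ε := True) hl (((hf a).clm hsL).clm (mlL - mlL.flip)) (p b)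
  have q := fun a b => ((hα a).bil mlL (Lev.left hj (by omega)) hl (p b)).imp (ε' := True) Or.inl
  have s : ∀ a i y x, SA I (fun x => opL (α a i y x)) x := fun a i y x =>
    SA.clm opL ((hα a).sz.sm i y x)
  have e : ∀ i y a b x, hsL (dv I ((G i (D.pt i y)).e a) (fun x => opL (α b i y x)) x) =
      (G i (D.pt i y)).D a (α b i y) x := fun i y a b x => by
    rw [dv_clm opL (((hα b).sz.sm i y).mdifferentiableAt (by simp)), hsL_opL]; rfl
  have n : ∀ (S : En κ) (ξ : HS κ), hsL (S * opL ξ) = mlL (hsL S) ξ := fun S ξ => by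
    rw [← mlL_apply, hsL_opL]
  have n' : ∀ (S : En κ) (ξ : HS κ), hsL (opL ξ * S) = mlL ξ (hsL S) := fun S ξ => by
    rw [← mlL_apply, hsL_opL]
  refine (((((d a b).add (m a b)).sub hl ((d b a).add (m b a))).sub hl (A0.fsum Finset.univ
    fun k _ => (hF.c a b k).smul hl (p k))).add ((q a b).sub hl (q b a))).congr fun i y x => ?_
  have := curv_addA (e := (G i (D.pt i y)).e) (c := (G i (D.pt i y)).c)
    (A := fun a => f a i (D.pt i y)) (B := fun a x => opL (α a i y x))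
    (fun a => (hf a).sz.sm i y x) (fun a => s a i y x) a b
  refine (congrArg (fun S => hsL S - _) this).trans ?_
  simp only [dA, nabE, map_add, map_sub, map_sum, map_smul, e, n, n', hsL_opL,
    sub_apply, ContinuousLinearMap.flip_apply]
  abel

end curv

variable (D lam) in
/-- the test data in `Ω` are uniformly bounded and uniformly pure -/
structure Td (Ω : Set M) (j : ℕ) : Prop where
  tf : ∀ {f : M → ℝ}, Tf I Ω f → D.A0 True j fun _ _ => f
  tv : ∀ {s : M → Eu lam}, Tv I Ω s → D.A0 True j fun _ _ => s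
  cd : ∀ {f : M → ℝ}, Tf I Ω f → D.CdU f
  sw : ∀ {u : SW M}, SwIn I Ω u → D.SwU u
  la : ∀ {u : List (An.La M)}, LlIn I Ω u → ∀ t ∈ u, D.LaU t
  sg : ∀ {g : Sg M lam}, SgIn I Ω g → D.SgU g

variable {μ : MF M ι lam J} {r n : ℕ} {κ : CF D μ r} (h : κ.OKp j) {Ω : Set M}
include h

theorem mulV (a : ι) : D.Mp j fun i y => κ.W i y a :=
  ((h.W a).toMp opL h.h7).congr fun _ _ _ => (opL_hsL _).symm

/-- the Dirac row -/
theorem eqD (hl : 4 ≤ l) (hlj : l + 1 ≤ j) : D.A0 True l (V := μ.V) fun i y =>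
    dir I (κ.F i y).e (μ.ρ i) (κ.W i y) (κ.Φ i y) :=
  A0.fsum Finset.univ fun a _ => (((h.o.Φ.lower (by omega) hlj).dG h.o.F hl a).add
    ((mulV h a).app hl (by omega) (h.o.Φ.lower hl (by omega)))).app hl (h.o.ρ a)

/-- the quadratic term -/
theorem eqM {B : J → Base M ι lam} (hl : 4 ≤ l) (hlj : l ≤ j) (hB : UB D.P (μ.p2 B)) :
    D.A0 True l (V := Fm (ι × ι) μ.A) fun i y x => (μ.m i).mu (B i) x (κ.Φ i y x) (κ.Φ i y x) :=
  (A0.toLp hl fun s : ι × ι => ((h.o.q h.o.Φ ((h.o.Φ.app h.o.h4 (h.o.ρ s.2)).app h.o.h4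
    (h.o.ρ s.1))).imp Or.inl).lower hl hlj).app hl hB

variable (t : Td lam D Ω j)
include t

theorem sw {w : SW M} (hw : SwIn I Ω w) : D.A0 True j (κ.sw w) := h.wdV h.o.Φ (t.sw hw)

theorem dd {g g' : M → ℝ} (hg : Tf I Ω g) (hg' : Tf I Ω g') (s : ι × ι) :
    D.A0 False j fun i y x => (κ.F i y).D s.1 g x * (κ.F i y).D s.2 g' x :=
  h.o.dd (t.cd hg) (t.cd hg') h.o.h4 s

theorem aw {ξ : AW M} (hξ : AwIn I Ω ξ) : D.A0 True j (κ.aw ξ) := by
  refine h.wdA ?_ (t.la hξ.2)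
  obtain ⟨s, L⟩ := ξ
  cases s with
  | q u v => exact (h.o.q (sw h t hξ.1.1) (sw h t hξ.1.2)).imp Or.inl
  | cv f g g' =>
    have := h.h7
    obtain ⟨l, rfl⟩ : ∃ l, j = l + 2 := ⟨j - 2, by omega⟩
    have hl : 4 ≤ l := by omega
    refine h.resA hl (by omega) ((h.resA hl (by omega) (A0.fsum Finset.univ fun s _ => ?_)).lower
      hl (by omega))
    exact (h.Fg ((A0.smul h.o.lev h.o.h4 (t.tf hξ.1.1) (dd h t hξ.1.2.1 hξ.1.2.2 s)).imp Or.inl) hl
      (by omega) s).congr fun i y x => by rw [mul_assoc, smul_eq_mul]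

theorem js {s : M → Eu lam} (hs : Tv I Ω s) {u : SW M} (hu : SwIn I Ω u) :
    D.A0 True j (κ.js s u) :=
  ((((t.tv hs).app h.o.h4 ((UB.const hsL).comp h.o.j)).bil opL h.o.lev h.o.h4 (sw h t hu)).imp
    Or.inl).congr fun i y x => by rw [ContinuousLinearMap.comp_apply, opL_hsL]; rfl

theorem sg {g : Sg M lam} (hg : SgIn I Ω g) : D.Sc fun i y => (κ.c i y).sg (κ.F i y) g := by
  obtain ⟨g1, g2, ⟨K, hK⟩, -⟩ := t.sg hg
  obtain ⟨ρ, r1, r2⟩ := h.o.F.dens
  obtain ⟨C, hC⟩ := (UB.const hsL).comp h.o.j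
  refine (((sw h t hg.2.2).bil rkL h.o.lev h.o.h4 (sw h t hg.2.1)).integral_us (hmL μ.Jc) h.o.h4 r1
    (σ := fun i x => hsL.comp (μ.j i x) (g.s x))
    (fun i => (hC i).1.continuous.clm_apply g1) (fun i => g2.mono fun x hx h0 => hx (by simp [h0]))
    ⟨|C 0| * K, fun i => ?_⟩).congr fun i y => ?_
  · refine (integral_mono_of_nonneg (.of_forall fun _ => norm_nonneg _)
      ((g1.norm.integrable_of_hasCompactSupport g2.norm).const_mul |C 0|) (.of_forall fun x =>
        ContinuousLinearMap.le_of_opNorm_le _ (CB_bound (CB_abs ((hC i).2 0)) x) _)).trans ?_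
    rw [integral_const_mul]
    exact mul_le_mul_of_nonneg_left (hK i) (abs_nonneg _)
  · refine (r2 i y _).trans (integral_congr_ae (.of_forall fun x => ?_))
    simp only [ContinuousLinearMap.comp_apply, hmL_apply]
    rfl

theorem co {d : Co M lam r} (hd : CoIn I Ω d) : D.Sc fun i y => (κ.c i y).co (κ.F i y) d := by
  cases d with
  | z k => exact h.o.co (d := .z k) trivial
  | s g L =>
    have sq : ∀ {g : Sg M lam}, SgIn I Ω g → D.Sc fun i y => ‖(κ.c i y).sg (κ.F i y) g‖ ^ 2 :=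
      fun hg => (sg h t hg).comp (contDiff_norm_sq ℝ)
    refine ((((sq hd.1).add (Sc.lsum L fun g' hg' => sq (hd.2 g' hg'))).comp contDiff_isq).bil
      (ContinuousLinearMap.lsmul ℝ ℝ) (sg h t hd.1)).congr fun i y => ?_
    rw [isq_eq (add_nonneg (sq_nonneg _) (List.sum_nonneg fun a ha => by
      obtain ⟨_, -, rfl⟩ := List.mem_map.1 ha; exact sq_nonneg _))]
    simp only [Cfg.co, ContinuousLinearMap.lsmul_apply, Complex.real_smul, Complex.ofReal_inv,
      add_assoc]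
    exact div_eq_inv_mul _ _

theorem qj {d : Co M lam r} {s : M → Eu lam} {u v : SW M} {L : List (An.La M)} (hd : CoIn I Ω d)
    (hs : Tv I Ω s) (hu : SwIn I Ω u) (hv : SwIn I Ω v) (hL : LlIn I Ω L) :
    D.A0 True j (V := μ.A) fun i y =>
      wd ((κ.c i y).la (κ.F i y)) ((κ.c i y).qj (κ.F i y) d s u v) L :=
  h.wdA ((h.o.q (h.o.cs (ε' := True) (co h t hd) (js h t hs hu)) (sw h t hv)).imp Or.inl) (t.la hL)

/-- the words at a point -/
theorem xi {ξ : Xi M lam r} (hξ : XiIn I Ω ξ) (x₀ : J → M) :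
    D.Sc (N := En (Fin μ.N)) fun i y => (κ.c i y).xi (κ.F i y) ξ (x₀ i) := by
  cases ξ with
  | one => exact Sc.const 1
  | aw ξ => exact (Csm97.sc_ev h.o.h4 (aw h t hξ) x₀).clm opL
  | qj d s u v l =>
    exact (Csm97.sc_ev h.o.h4 (qj h t hξ.1 hξ.2.1 hξ.2.2.1 hξ.2.2.2.1 hξ.2.2.2.2) x₀).clm opL

variable {B : J → Base M ι lam} {T : Tm M lam r n} (hT : TmIn I Ω T)
include hT

theorem tD (hB : UB D.P (μ.pm B)) :
    D.A0 True j (V := μ.V) fun i y => (κ.c i y).tD (B i) (κ.F i y) T := by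
  cases T with
  | lin u => exact (sw h t hT.1).app h.o.h4 hB
  | anti d s u => exact (h.o.cs (co h t hT.1) (js h t hT.2.1 hT.2.2)).app h.o.h4 hB
  | _ => exact A0.zero

theorem tC (hB : UB D.P (μ.p2 B)) :
    D.A0 True j (V := Fm (ι × ι) μ.A) fun i y => (κ.c i y).tC (B i) (κ.F i y) T := by
  cases T with
  | ad g g' ξ =>
    exact (A0.toLp h.o.h4 fun s => (A0.smul h.o.lev h.o.h4 (dd h t hT.1 hT.2.1 s)
      (aw h t hT.2.2)).imp Or.inr).app h.o.h4 hB
  | adj d s g g' u v l =>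
    obtain ⟨t1, t2, t3, t4, t5, t6, t7⟩ := hT
    exact (A0.toLp h.o.h4 fun s => (A0.smul h.o.lev h.o.h4 (dd h t t3 t4 s)
      (qj h t t1 t2 t5 t6 t7)).imp Or.inr).app h.o.h4 hB
  | adn f g g' φ L =>
    obtain ⟨t1, t2, t3, t4, -, t5⟩ := hT
    have h0 : D.A0 True j (κ.aws L) := A0.lsum L fun ξ hξ => aw h t (t5 ξ hξ)
    have h1 := ((h0.bil (innerSL ℝ) h.o.lev h.o.h4 h0).congr
      (w' := fun i y x => ‖κ.aws L i y x‖ ^ 2) fun i y x =>
        (real_inner_self_eq_norm_sq _).symm).comp h.o.hj t4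
    refine ((A0.toLp h.o.h4 fun s => (A0.smul h.o.lev h.o.h4 (A0.smul h.o.lev h.o.h4
      (dd h t t2 t3 s) h1) (A0.smul h.o.lev h.o.h4 (t.tf t1) h0)).imp
        fun e => .inr (.inl e)).app h.o.h4 hB).congr fun i y x => ?_
    simp only [Cfg.tC, smul_smul, smul_eq_mul]
    congr 2
    funext s
    congr 1
    simp only [CF.aws]
    ring
  | _ => exact A0.zero

theorem tS : D.Sc fun i y => (κ.c i y).tS (κ.F i y) T := by
  cases T with
  | cut k w g =>
    exact ((sg h t hT).clm (ContinuousLinearMap.mul ℝ ℂ w)).clm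
      (ContinuousLinearMap.single ℝ (fun _ => ℂ) k)
  | cz k w k' => exact h.o.tS (T := .cz k w k') trivial
  | _ => exact Sc.const 0

end Crest.Agent.X212.Cap39
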