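import Crest.Agent.X212.Cap39.Gen
import Crest.Agent.X212.Gla92.Lf2

/-! # Row 212, GLL-CAP (helper39): the leaf `Gla92.CapStmt` -/

set_option autoImplicit false
set_option linter.unusedSectionVars false
set_option maxSynthPendingDepth 3
noncomputable section
open scoped Manifold ContDiff Topology InnerProductSpace ENNReal NNReal
open MeasureTheory Set Function Filter Metric

namespace Crest.Agent.X212.Cap39
open An Sob92 Prm93 Mod61 Map77 Mon62 Mon62.Dm Gl67 Gla92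
open Ell97 (UB)
open Std94 (Kl)

variable {E : Type} [NormedAddCommGroup E] [NormedSpace ℝ E] [FiniteDimensional ℝ E]
  [MeasurableSpace E] [BorelSpace E]
  {HM : Type} [TopologicalSpace HM] {I : ModelWithCorners ℝ E HM} [I.Boundaryless]
  {M : Type} [TopologicalSpace M] [ChartedSpace HM M] [IsManifold I ∞ M]
  [MeasurableSpace M] [T2Space M] [BorelSpace M] [SecondCountableTopology M]
  {ι lam h : Type} [Fintype ι] [Fintype lam] [Fintype h]
  {T U Up R : Type} [NormedAddCommGroup T] [NormedSpace ℝ T] [NormedAddCommGroup U]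
  [NormedSpace ℝ U] [NormedAddCommGroup Up] [NormedSpace ℝ Up] [NormedAddCommGroup R]
  [NormedSpace ℝ R] {N r n m : ℕ} {Jc : En (Fin N)} {J : Type} {𝔉 : J → Fam I M ι lam T}
  {s : ∀ i, Sid (𝔉 i) N Jc U Up R} {Ω : Set M} {δ r₀ : ℝ}
  {V : Type} [NormedAddCommGroup V] [InnerProductSpace ℝ V] [CompleteSpace V]

theorem FL_of_N {F F' : Pre I M ι} {g : M → ℝ} (h : Nk89.WtP F F' g) (k : ℕ) :
    ∀ {u : M → V}, Sm I u → Gl67.N F g univ k u ≠ ⊤ → FL F' k u := by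
  have h0 : ∀ {k} {u : M → V}, Sm I u → Gl67.N F g univ k u ≠ ⊤ →
      (∀ x, ‖u x‖ ^ 2 ≤ Gl67.J F k u x) → MemLp u 2 F'.μ := fun hu hn le =>
    (memLp_two_iff_integrable_sq_norm hu.continuous.aestronglyMeasurable).2
      ⟨(hu.continuous.norm.pow 2).aestronglyMeasurable, by
        rw [Gl67.N, Measure.restrict_univ] at hn
        rw [hasFiniteIntegral_iff_ofReal (.of_forall fun _ => sq_nonneg _), h.μ, Nk89.wm,
          lintegral_withDensity_eq_lintegral_mul_non_measurable _ (Nk89.meas_w h.sm.continuous)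
            (.of_forall fun _ => ENNReal.ofReal_lt_top)]
        refine lt_of_le_of_lt (lintegral_mono fun x => ?_) hn.lt_top
        rw [Pi.mul_apply, ← ENNReal.ofReal_mul (Real.exp_pos _).le]
        exact ENNReal.ofReal_le_ofReal (mul_le_mul_of_nonneg_left (le x) (Real.exp_pos _).le)⟩
  induction k with
  | zero => exact fun hu hn => h0 hu hn fun _ => le_rfl
  | succ k ih =>
    refine fun {u} hu hn => ⟨h0 hu hn fun _ => le_add_of_nonneg_right
      (Finset.sum_nonneg fun _ _ => J_nonneg k _), fun a => ?_⟩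
    rw [show dv I (F'.e a) u = F.D a u by rw [h.e]; rfl]
    refine ih (F.sm_D hu a) (ne_top_of_le_ne_top hn (lintegral_mono fun x =>
      ENNReal.ofReal_le_ofReal (mul_le_mul_of_nonneg_left ?_ (Real.exp_pos _).le)))
    exact (Finset.single_le_sum (f := fun a => Gl67.J F k (F.D a u) x)
      (fun _ _ => J_nonneg k _) (Finset.mem_univ a)).trans (le_add_of_nonneg_left (sq_nonneg _))

variable (H : Un s δ r₀) {k : ℕ} {ρ : ℝ≥0}
include H

/-- decaying functions are pure -/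
theorem a0_wb {ε : Prop} {j : ℕ} (hj : 4 ≤ j) {f : J → M → V} (hf : Wb s δ j f) :
    (H.dm h r k ρ).A0 ε j fun z _ => f z.1 := by
  obtain ⟨K, hK⟩ := hf.n
  have w := fun z => (wt_Fp s δ z).toWtP
  have n : ∀ z : J × Pf, Gl67.N (P0 𝔉 z.1) (wg s δ z) univ j (f z.1) ≤ K := fun z =>
    (N_wt' .univ fun x _ => pr_le H.δ0 z.2.hx z.2.hy).trans (hK _)
  have sm := fun i => hf.ub.sm i
  choose a ha using fun z : J × Pf => exists_Is (p := triv M V)
    (Exh.of_tame ((H.dm h r k ρ).tame z)) (sm z.1)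
    (FL_of_N (w z) j (sm _) (ne_top_of_le_ne_top ENNReal.coe_ne_top (n z))) fun _ => rfl
  have e := fun z => (ha z).val_eq ((H.dm h r k ρ).sup z) hj (sm _).continuous
  refine A0.of_pure (Sz.fixed (H.ubW hf.ub)) (δ := fun z _ => a z) (UC.const ⟨√K, fun z => ?_⟩)
    fun z _ x => (congrFun (e z) x).symm
  have e' : (Fp s δ z).val j _ (a z) = f z.1 := e z
  have := (N_val (w z) ((H.dm h r k ρ).sup z) hj (a z) (by rw [e']; exact sm _)).symm.trans_le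
    ((congrArg _ e').trans_le (n z))
  exact Real.le_sqrt_of_sq_le ((ENNReal.ofReal_le_ofReal_iff K.2).1
    (this.trans_eq ENNReal.ofReal_coe_nnreal.symm))

omit H in
variable (s) in
/-- the base connection with the limit moved -/
abbrev Wu (i : J) (t : T) (u : U) : ι → M → En (Fin N) :=
  (s i).md.addC ((𝔉 i).W0 (s i).md (s i).A0 t) fun x =>
    idx ((𝔉 i).S t x) (.id ℝ _) ((s i).b x u)

theorem uc_u : UC (H.dm h r k ρ).toRg fun _ v => v.2.2.1 :=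
  H.uc_q (ContinuousLinearMap.fst ℝ _ _ ∘L ContinuousLinearMap.snd ℝ _ _)

theorem us_Wu (a : ι) : (H.dm h r k ρ).US fun z v => Wu s z.1 v.2.1 v.2.2.1 a :=
  have u : (usK (H.dm h r k ρ)).mem fun q => q.1.2.2.2.1 := us_par (uc_u H)
  (usK _).add (H.us_W0 a) (Kl.clm (opL ∘L pj _ a) ((usK _).app H.us_S
    ((usK _).app (H.us_fix H.b) u)))

theorem a0_α (hk : 3 ≤ k) (a : ι) : (H.dm h r k ρ).A0 True (k + 1) fun z y x =>
    idx ((𝔉 z.1).S y.2.1.1 x) (.id ℝ (HS (Fin N))) (fa (y.1.1 x)) a :=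
  (us_mulK (ε := True) (by omega) H.us_S ((H.a0_w hk).clm (by omega) fa)).clm (by omega) (pj _ a)

variable (c : Cm N r h R)

theorem W_eq (z : J × Pf) (y : YY h r s z) : (H.kf c k ρ).W z y = fun a x =>
    Wu s z.1 y.2.1.1 y.2.1.2.1 a x +
      opL (idx ((𝔉 z.1).S y.2.1.1 x) (.id ℝ (HS (Fin N))) (fa (y.1.1 x)) a) := by
  funext a x
  simp only [Un.kf, Sid.cfg, Md.addC, map_add, PiLp.add_apply]
  abel

theorem wa (hk : 3 ≤ k) : WA k H c ρ := fun a =>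
  ⟨_, (us_Wu H a).clm hsL, (a0_α H hk a).congr fun z y x => by
    beta_reduce
    rw [W_eq, map_add, Wz78.hsL_opL]; exact add_sub_cancel_left _ _⟩

theorem okp (hk : 7 ≤ k) (hΦ : Wb s δ (k + 1) fun i => (s i).Φ0) : (H.kf c k ρ).OKp (k + 1) :=
  ⟨⟨by omega, H.ff, H.rb, H.rb, H.re, H.re, fun _ => A0.zero.congr fun _ _ _ => map_zero _,
    fun _ _ _ _ _ _ => by simp, (a0_wb H (by omega) hΦ).add
      ((H.a0_w (by omega)).clm (by omega) fp), H.sc_z c, fun a => H.ubW (H.ρ a), H.ubW H.j,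
    H.ubW H.ub_pg⟩, wa H c (by omega), H.skW c⟩

omit c in
theorem td (L : Lo s Ω) {j : ℕ} (hj : 4 ≤ j) : Td lam (H.dm h r k ρ) Ω j :=
  ⟨fun a => H.a0_bu hj (L.tf a), fun a => H.a0_bu hj (L.tv a), L.cdU H, L.swU H, L.laU H, L.sgU H⟩

omit c in
/-- the curvature does not depend on the parameter where the geometry does not -/
theorem curv_off {i : J} {χ : M → ℝ} (hχ : Continuous χ)
    (h1 : ∀ a b, Off (𝔉 i).Q χ fun t x => (𝔉 i).S t x a b)
    (h2 : ∀ a b k, Off (𝔉 i).Q χ fun t x => (𝔉 i).cf t x a b k)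
    (h3 : ∀ a, Off (𝔉 i).Q χ fun t x => (𝔉 i).la t x a)
    (h4 : ∀ a b k, Off (𝔉 i).Q χ fun t => ((𝔉 i).G t).F.c a b k) {t : T} (ht : t ∈ (𝔉 i).Q)
    (u : U) {x : M} (hx : χ x ≠ 1) :
    (s i).md.Fg ((𝔉 i).G t).F (Wu s i t u) x = (s i).md.Fg ((𝔉 i).G 0).F (Wu s i 0 u) x := by
  have q0 := (H.ok i).q0
  have w : ∀ a y, χ y ≠ 1 → Wu s i t u a y = Wu s i 0 u a y := fun a y hy => by
    have e : (𝔉 i).S t y = (𝔉 i).S 0 y := funext₂ fun a b => h1 a b t ht 0 q0 y hy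
    have e' : (𝔉 i).cf t y = (𝔉 i).cf 0 y := funext₃ fun a b k => h2 a b k t ht 0 q0 y hy
    have e'' : (𝔉 i).la t y = (𝔉 i).la 0 y := funext fun a => h3 a t ht 0 q0 y hy
    simp only [Md.addC, Fam.W0, e, e', e'']
  have d : ∀ a b, dv I (((𝔉 i).G t).F.e a) (Wu s i t u b) x =
      dv I (((𝔉 i).G 0).F.e a) (Wu s i 0 u b) x := fun a b => by
    rw [dv_congr ((hχ.continuousAt.eventually_ne hx).mono (w b))]
    simp only [dv, (H.fam i).mix t ht a x, (H.fam i).mix 0 q0 a x, h1 a _ t ht 0 q0 x hx]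
  simp only [Md.Fg, Wz78.curv, d, w _ x hx, h4 _ _ _ t ht 0 q0 x hx]

variable [FiniteDimensional ℝ U]

theorem eqC (hk : 7 ≤ k) (O : Mo s δ k) :
    (H.dm h r k ρ).A0 False k (V := Fm (ι × ι) (HS (Fin N))) fun z y x => (s z.1).md.p2 (𝔉 z.1).B x
      ((s z.1).md.Fg ((𝔉 z.1).G y.2.1.1).F ((H.kf c k ρ).W z y) x) := by
  obtain ⟨n, γ, g, g1, g2, g3⟩ := O.C
  obtain ⟨χ, c1, c2⟩ := H.loc
  have h4 : 4 ≤ k := by omega
  let K := usK (H.dm h r k ρ)
  obtain ⟨C, hC⟩ := (uc_u (h := h) (r := r) (k := k) (ρ := ρ) H).bd0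
  have u : ∀ a, UC (H.dm h r k ρ).toRg fun _ v => γ a v.2.2.1 := fun a =>
    (uc_u H).cmp_fixed isOpen_univ (isCompact_closedBall 0 C) (subset_univ _) (g1 a).contDiffOn
      (fun _ _ _ => mem_univ _) fun i x hx => mem_closedBall_zero_iff.2 (hC i x hx)
  have u' : ∀ a, K.mem fun q => γ a q.1.2.2.2.1 := fun a => us_par (u a)
  have f : ∀ a b, K.mem fun q => Wz78.curv I ((𝔉 q.1.1.1).G q.1.2.2.1).F.e
      ((𝔉 q.1.1.1).G q.1.2.2.1).F.c (Wu s q.1.1.1 q.1.2.2.1 q.1.2.2.2.1) a b q.2 :=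
    fun a b => us_curv H.ff (us_Wu H) a b
  have f1 : K.mem (N := Fm (ι × ι) (HS (Fin N))) fun q => (s q.1.1.1).md.Fg
      ((𝔉 q.1.1.1).G q.1.2.2.1).F (Wu s q.1.1.1 q.1.2.2.1 q.1.2.2.2.1) q.2 := by
    simp only [Md.Fg, ← fun v : ι × ι → HS (Fin N) =>
      (PiLp.ext (Ell97.sum_ij v) : _ = WithLp.toLp 2 v)]
    exact Kl.fsum _ fun a => Kl.clm _ (K.app (H.us_fix H.ub_pg) (Kl.clm hsL (f a.1 a.2)))
  have f2 : (H.dm h r k ρ).US (N := Fm (ι × ι) (HS (Fin N))) fun z v x =>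
      (s z.1).md.p2 (𝔉 z.1).B x ((s z.1).md.Fg ((𝔉 z.1).G v.2.1).F
        (Wu s z.1 v.2.1 v.2.2.1) x) - ∑ a, γ a v.2.2.1 • g a z.1 x :=
    Kl.sub (K.app (H.us_fix H.ub_p2) f1)
      (Kl.fsum _ fun a => Kl.smul (u' a) (H.us_fix (g2 a).ub))
  have e : ∀ i, ∀ t ∈ (𝔉 i).Q, ∀ u x, χ i x ≠ 1 → (s i).md.p2 (𝔉 i).B x ((s i).md.Fg
      ((𝔉 i).G t).F (Wu s i t u) x) - ∑ a, γ a u • g a i x = bC (s i) 0 x := fun i t ht u x hx => by
    rw [curv_off H (c1.ub.sm i).continuous (c2 i).1 (c2 i).2.1 (c2 i).2.2.1 (c2 i).2.2.2.1 ht u hx]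
    exact sub_eq_of_eq_add (g3 i u x)
  have a1 := A0.loc h4 f2 (χ := fun z => χ z.1) (H.a0_bu h4 c1) fun z y x => by
    by_cases e' : χ z.1 x = 1
    · rw [e', one_smul]
    · have z0 := sub_eq_zero.2 ((e _ _ ((H.dm h r k ρ).mem z y) ((H.dm h r k ρ).pt z y).2.2.1 x
        e').trans (e _ _ ((H.dm h r k ρ).mem z ((H.dm h r k ρ).y₀ z))
          ((H.dm h r k ρ).pt z ((H.dm h r k ρ).y₀ z)).2.2.1 x e').symm)
      rw [z0, smul_zero]
  have a2 := A0.fsum Finset.univ fun a _ => (a0_wb H (h := h) (r := r) (k := k) (ρ := ρ) h4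
    (g2 a)).smulc (ε := False) ⟨_, u a, fun _ _ => rfl⟩
  have a3 := (A0.toLp h4 fun a : ι × ι => (a0_curv H.ff (by omega) h4 le_rfl (us_Wu H)
    (a0_α (h := h) (r := r) (ρ := ρ) H (by omega : 3 ≤ k)) a.1 a.2).app h4
      (H.ubW H.ub_pg)).app h4 H.ubW_p2
  refine ((a1.add a2).add a3.aff).congr fun z y x => ?_
  rw [W_eq]
  refine Eq.trans ?_ (congrArg (· + _) (sub_add_cancel _ _).symm)
  refine (congrArg _ (PiLp.ext fun a => ?_)).trans (map_add _ _ _)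
  exact (add_sub_cancel _ _).symm.trans (congrArg _ (map_sub _ _ _).symm)

theorem ca (hk : 7 ≤ k) (L : Lo s Ω) (O : Mo s δ k) : Ca k H c ρ Ω := by
  have κ := okp H c (ρ := ρ) hk O.Φ
  have t := td H (h := h) (r := r) (k := k) (ρ := ρ) L κ.o.h4
  have h4 : 4 ≤ k := by omega
  refine ⟨wa H c (by omega), fun n m => ⟨(eqD κ h4 le_rfl).aff, (eqC H c hk O).sub h4
    (eqM κ h4 k.le_succ H.ubW_p2).aff, (Sc.const 0).congr fun _ _ => rfl,
    fun i w _ hq => pm_eq0 (H.ok i) c w hq, fun i w q _ x => ?_⟩, fun n m τ a =>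
    ⟨(tD κ t a H.ubW_pm).lower h4 k.le_succ, (tC κ t a H.ubW_p2).lower h4 k.le_succ,
      sc_prod (tS κ t a) (Sc.const 0), fun i _ _ _ x => (H.pm_tm i _ _ _ τ x).1,
      fun i _ _ _ x => (H.pm_tm i _ _ _ τ x).2⟩, fun ξ x a => xi κ t a fun _ => x⟩
  have b := Std94.p2_p2 (m := (s i).md) (H.fam i).B x
  simp only [Fam.eq0, eq0, Md.mu]
  exact (map_sub _ _ _).trans (congrArg₂ (· - ·) (b _) (b _))

omit H c

variable (I M lam) in
/-- **LEAF CAP** -/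
theorem cap : CapStmt I M lam :=
  fun _ _ _ _ _ _ _ _ _ _ _ _ _ _ _ _ _ _ _ _ _ _ _ _ _ _ _ H c _ hk L O => ca H c hk L O

end Crest.Agent.X212.Cap39
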